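import Vale.Agent.P263.TW.RPow
import Vale.Agent.P263.TJ.RkBox
import Vale.Agent.P263.TOP.LitL1

/-!
# P263, block TW (helper689): `CmpOne` for the tower of the spaces `BW_n` and the rank map
-/

noncomputable section

namespace Vale.Agent.P263.TW

open Vale.Agent.P263.S Vale.Agent.P263.E Vale.Agent.P263.E.SS Vale.Agent.P263.TOP
open Vale.Agent.P263.TOP.H Vale.Agent.P263.TJ Vale.Agent.P263.G2

/-- **The comparison of the class `v^d` with the box value of the chains of loops.** -/
theorem cmpOne (N : ℕ) : CmpOne towerModel (TJ.rkBox N) := by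
  intro d _
  refine ⟨vcls d, ⟨(ctree (ZMod 2) 1 N).app d (vpowZ d).1,
    (ctree (ZMod 2) 1 N).app_mem_Z (vpowZ d).2⟩, r_vpow d, rfl, fun r ξ _ => ?_⟩
  have h : (((TJ.rkBox N).comp (stIn (r + 1) N)).pull (R := ZMod 2)).app d
      ((ctree (ZMod 2) 1 N).app d (vpowZ d).1) =
      (show (SS.F (ZMod 2) (FNr (r + 1) N Unit)).obj d from
        Cc.pull (lbB (r + 1) N) (tln boxLab N d) d) := by
    funext S
    exact rkBox_ctree (r + 1) N d d S
  exact congrArg (fun c => G2.ev c ξ) h

end Vale.Agent.P263.TW
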